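import Mathlib

namespace Vale.Agent.P042

/-- the largest size of a subset of `{1, …, N}` no difference of which is a nonzero value `h n`,
`n ≥ 1` -/
noncomputable def r (h : Polynomial ℤ) (N : ℕ) : ℕ :=
  sSup {k : ℕ | ∃ A : Finset ℤ, A ⊆ Finset.Icc (1 : ℤ) N ∧ A.card = k ∧
    ∀ a ∈ A, ∀ b ∈ A, ∀ n : ℕ, 1 ≤ n → a - b = h.eval (n : ℤ) → a - b = 0}

end Vale.Agent.P042
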