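import Vale.Agent.P042.Defs

/-! Sets of residues with a height function that increases along square differences. -/

namespace Vale.Agent.P042

open Finset

/-- `s` residues modulo `M` with heights below `T` -/
def Sys (M s T : ℕ) : Prop :=
  ∃ (S : Finset ℕ) (Φ : ℕ → ℕ), S.card = s ∧ (∀ x ∈ S, x < M ∧ Φ x < T) ∧
    ∀ x ∈ S, ∀ y ∈ S, ∀ n : ℕ, x ≡ y + n ^ 2 [MOD M] → x = y ∨ Φ x < Φ y

theorem Sys.one : Sys 1 1 1 :=
  ⟨{0}, fun _ => 0, rfl, by simp, by simp⟩

theorem Sys.mono {M s T T' : ℕ} (h : Sys M s T) (hT : T ≤ T') : Sys M s T' :=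
  let ⟨S, Φ, h1, h2, h3⟩ := h
  ⟨S, Φ, h1, fun x hx => ⟨(h2 x hx).1, (h2 x hx).2.trans_le hT⟩, h3⟩

theorem digits_inj {M : ℕ} {S S' : Finset ℕ} (h : ∀ x ∈ S, x < M) :
    Set.InjOn (fun p : ℕ × ℕ => p.1 + M * p.2) ↑(S ×ˢ S') := by
  rintro ⟨a, b⟩ h1 ⟨c, d⟩ h2 e
  have ha := h a (mem_product.1 h1).1
  have hc := h c (mem_product.1 h2).1
  have e1 := congrArg (· % M) e
  simp only [Nat.add_mul_mod_self_left, Nat.mod_eq_of_lt ha, Nat.mod_eq_of_lt hc] at e1
  subst e1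
  have e2 : M * b = M * d := Nat.add_left_cancel e
  rw [Nat.eq_of_mul_eq_mul_left (by omega) e2]

theorem lex_lt {a b c d T : ℕ} (h : a < b) (hc : c < T) : a * T + c < b * T + d := by
  have := Nat.mul_le_mul_right T (show a + 1 ≤ b from h)
  rw [add_mul, one_mul] at this
  omega

/-- the lexicographic product -/
theorem Sys.lex {m s T M' s' T' : ℕ} (h : Sys (m ^ 2) s T) (h' : Sys M' s' T') :
    Sys (m ^ 2 * M') (s * s') (T * T') := by
  obtain ⟨S, Φ, h1, h2, h3⟩ := h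
  obtain ⟨S', Φ', h1', h2', h3'⟩ := h'
  have key : ∀ a ∈ S, ∀ b, (a + m ^ 2 * b) % m ^ 2 = a ∧ (a + m ^ 2 * b) / m ^ 2 = b :=
    fun a ha b => by
      have := (h2 a ha).1
      exact ⟨by rw [Nat.add_mul_mod_self_left, Nat.mod_eq_of_lt this],
        by rw [Nat.add_mul_div_left _ _ (by omega), Nat.div_eq_of_lt this, zero_add]⟩
  refine ⟨(S ×ˢ S').image fun p => p.1 + m ^ 2 * p.2, fun x => Φ (x % m ^ 2) * T' + Φ' (x / m ^ 2),
    by rw [card_image_of_injOn (digits_inj fun x hx => (h2 x hx).1), card_product, h1, h1'],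
    fun x hx => ?_, fun x hx y hy n hn => ?_⟩
  · obtain ⟨⟨a, b⟩, hp, rfl⟩ := mem_image.1 hx
    obtain ⟨ha, hb⟩ := mem_product.1 hp
    simp only [(key a ha b).1, (key a ha b).2]
    refine ⟨?_, lex_lt (d := 0) (h2 a ha).2 (h2' b hb).2⟩
    have := lex_lt (d := 0) (h2' b hb).1 (h2 a ha).1
    rw [mul_comm (m ^ 2), mul_comm (m ^ 2)]; omega
  · obtain ⟨⟨a, b⟩, hp, rfl⟩ := mem_image.1 hx
    obtain ⟨⟨c, d⟩, hq, rfl⟩ := mem_image.1 hy
    obtain ⟨ha, hb⟩ := mem_product.1 hp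
    obtain ⟨hc, hd⟩ := mem_product.1 hq
    simp only [(key a ha b).1, (key a ha b).2, (key c hc d).1, (key c hc d).2]
    have e1 : a ≡ c + n ^ 2 [MOD m ^ 2] := by
      have := hn.of_mul_right M'
      unfold Nat.ModEq at this ⊢
      rwa [Nat.add_mul_mod_self_left, add_right_comm, Nat.add_mul_mod_self_left] at this
    rcases h3 a ha c hc n e1 with rfl | hlt
    · have e2 : m ^ 2 ∣ n ^ 2 := by
        have := (Nat.ModEq.add_left_cancel' a (show a + 0 ≡ a + n ^ 2 [MOD m ^ 2] from e1)).symm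
        exact (Nat.modEq_zero_iff_dvd).1 this
      obtain ⟨k, rfl⟩ := (Nat.pow_dvd_pow_iff two_ne_zero).1 e2
      rw [add_assoc, mul_pow, ← mul_add] at hn
      have e3 := Nat.ModEq.mul_left_cancel' (by have := (h2 a ha).1; omega)
        (Nat.ModEq.add_left_cancel' a hn)
      rcases h3' b hb d hd k e3 with rfl | hlt
      · exact Or.inl rfl
      · exact Or.inr (by omega)
    · exact Or.inr (lex_lt hlt (h2' b hb).2)

theorem Sys.pow {m s T : ℕ} (h : Sys (m ^ 2) s T) (e : ℕ) : Sys ((m ^ 2) ^ e) (s ^ e) (T ^ e) := by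
  induction e with
  | zero => exact Sys.one
  | succ e ih => rw [pow_succ', pow_succ' s, pow_succ' T]; exact h.lex ih

/-- coprime moduli: the heights are added -/
theorem Sys.crt {M s T M' s' T' : ℕ} (h : Sys M s T) (h' : Sys M' s' T') (co : Nat.Coprime M M') :
    Sys (M * M') (s * s') (T + T') := by
  obtain ⟨S, Φ, h1, h2, h3⟩ := h
  obtain ⟨S', Φ', h1', h2', h3'⟩ := h'
  have key : ∀ a ∈ S, ∀ b ∈ S', (Nat.chineseRemainder co a b : ℕ) % M = a ∧
      (Nat.chineseRemainder co a b : ℕ) % M' = b := fun a ha b hb =>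
    ⟨Eq.trans (Nat.chineseRemainder co a b).2.1 (Nat.mod_eq_of_lt (h2 a ha).1),
      Eq.trans (Nat.chineseRemainder co a b).2.2 (Nat.mod_eq_of_lt (h2' b hb).1)⟩
  refine ⟨(S ×ˢ S').image fun p => Nat.chineseRemainder co p.1 p.2,
    fun x => Φ (x % M) + Φ' (x % M'), ?_, fun x hx => ?_, fun x hx y hy n hn => ?_⟩
  · rw [card_image_of_injOn, card_product, h1, h1']
    rintro ⟨a, b⟩ hp ⟨c, d⟩ hq e
    obtain ⟨ha, hb⟩ := mem_product.1 hp
    obtain ⟨hc, hd⟩ := mem_product.1 hq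
    have k1 := key a ha b hb
    have k2 := key c hc d hd
    dsimp only at e
    rw [e] at k1
    exact Prod.ext (k1.1.symm.trans k2.1) (k1.2.symm.trans k2.2)
  · obtain ⟨⟨a, b⟩, hp, rfl⟩ := mem_image.1 hx
    obtain ⟨ha, hb⟩ := mem_product.1 hp
    have := h2 a ha
    have := h2' b hb
    simp only [(key a ha b hb).1, (key a ha b hb).2]
    exact ⟨Nat.chineseRemainder_lt_mul co a b (by omega) (by omega), by omega⟩
  · obtain ⟨⟨a, b⟩, hp, rfl⟩ := mem_image.1 hx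
    obtain ⟨⟨c, d⟩, hq, rfl⟩ := mem_image.1 hy
    obtain ⟨ha, hb⟩ := mem_product.1 hp
    obtain ⟨hc, hd⟩ := mem_product.1 hq
    simp only [(key a ha b hb).1, (key a ha b hb).2, (key c hc d hd).1, (key c hc d hd).2]
    have e1 := h3 a ha c hc n ((Nat.chineseRemainder co a b).2.1.symm.trans
      ((hn.of_mul_right M').trans ((Nat.chineseRemainder co c d).2.1.add_right _)))
    have e2 := h3' b hb d hd n ((Nat.chineseRemainder co a b).2.2.symm.trans
      ((hn.of_mul_left M).trans ((Nat.chineseRemainder co c d).2.2.add_right _)))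
    rcases e1 with rfl | e1 <;> rcases e2 with rfl | e2
    · exact Or.inl rfl
    all_goals exact Or.inr (by omega)

/-- a checkable description -/
theorem Sys.base (M T : ℕ) (l : List (ℕ × ℕ)) (h1 : (l.map Prod.fst).Nodup)
    (h2 : ∀ p ∈ l, p.1 < M ∧ p.2 < T)
    (h3 : ∀ p ∈ l, ∀ q ∈ l, ∀ n < M, p.1 = (q.1 + n ^ 2) % M → p.1 = q.1 ∨ p.2 < q.2) :
    Sys M l.length T := by
  classical
  have hinj := List.inj_on_of_nodup_map h1
  let Φ : ℕ → ℕ := fun x => if h : ∃ p ∈ l, p.1 = x then h.choose.2 else 0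
  have hΦ : ∀ p ∈ l, Φ p.1 = p.2 := fun p hp => by
    have h : ∃ q ∈ l, q.1 = p.1 := ⟨p, hp, rfl⟩
    simp only [Φ, dif_pos h]
    rw [hinj h.choose_spec.1 hp h.choose_spec.2]
  refine ⟨(l.map Prod.fst).toFinset, Φ, by rw [List.toFinset_card_of_nodup h1, List.length_map],
    fun x hx => ?_, fun x hx y hy n hn => ?_⟩
  · obtain ⟨p, hp, rfl⟩ := List.mem_map.1 (List.mem_toFinset.1 hx)
    rw [hΦ p hp]; exact h2 p hp
  · obtain ⟨p, hp, rfl⟩ := List.mem_map.1 (List.mem_toFinset.1 hx)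
    obtain ⟨q, hq, rfl⟩ := List.mem_map.1 (List.mem_toFinset.1 hy)
    have := (h2 p hp).1
    rw [hΦ p hp, hΦ q hq]
    refine h3 p hp q hq (n % M) (Nat.mod_lt _ (by omega)) ?_
    rw [← Nat.mod_eq_of_lt this, hn, Nat.add_mod, Nat.pow_mod, Nat.add_mod q.1, Nat.pow_mod (n % M),
      Nat.mod_mod]

/-- a squarefree modulus: the second digit is free -/
theorem Sys.sq {m s T : ℕ} (h : Sys m s T) (hm : Squarefree m) : Sys (m ^ 2) (s * m) T := by
  obtain ⟨S, Φ, h1, h2, h3⟩ := h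
  have key : ∀ a ∈ S, ∀ b, (a + m * b) % m = a := fun a ha b => by
    rw [Nat.add_mul_mod_self_left, Nat.mod_eq_of_lt (h2 a ha).1]
  have hlt : ∀ a ∈ S, ∀ b < m, a + m * b < m ^ 2 := fun a ha b hb => by
    have := lex_lt (d := 0) hb (h2 a ha).1
    rw [pow_two, mul_comm m b]; omega
  refine ⟨(S ×ˢ range m).image fun p => p.1 + m * p.2, fun x => Φ (x % m),
    by rw [card_image_of_injOn (digits_inj fun x hx => (h2 x hx).1), card_product, h1, card_range],
    fun x hx => ?_, fun x hx y hy n hn => ?_⟩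
  · obtain ⟨⟨a, b⟩, hp, rfl⟩ := mem_image.1 hx
    obtain ⟨ha, hb⟩ := mem_product.1 hp
    simp only [key a ha b]
    exact ⟨hlt a ha b (mem_range.1 hb), (h2 a ha).2⟩
  · obtain ⟨⟨a, b⟩, hp, rfl⟩ := mem_image.1 hx
    obtain ⟨⟨c, d⟩, hq, rfl⟩ := mem_image.1 hy
    obtain ⟨ha, hb⟩ := mem_product.1 hp
    obtain ⟨hc, hd⟩ := mem_product.1 hq
    simp only [key a ha b, key c hc d]
    have e1 : a ≡ c + n ^ 2 [MOD m] := by
      have := hn.of_dvd (Dvd.intro_left m (_root_.sq m).symm)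
      unfold Nat.ModEq at this ⊢
      rwa [Nat.add_mul_mod_self_left, add_right_comm, Nat.add_mul_mod_self_left] at this
    rcases h3 a ha c hc n e1 with rfl | hlt'
    · have e2 : m ∣ n ^ 2 := by
        have := (Nat.ModEq.add_left_cancel' a (show a + 0 ≡ a + n ^ 2 [MOD m] from e1)).symm
        exact (Nat.modEq_zero_iff_dvd).1 this
      have e3 := pow_dvd_pow_of_dvd ((hm.dvd_pow_iff_dvd two_ne_zero).1 e2) 2
      refine Or.inl (Nat.ModEq.eq_of_lt_of_lt (hn.trans ?_) (hlt a ha b (mem_range.1 hb))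
        (hlt a ha d (mem_range.1 hd)))
      exact (Nat.ModEq.refl _).add ((Nat.modEq_zero_iff_dvd).2 e3)
    · exact Or.inr hlt'

theorem r_bdd (h : Polynomial ℤ) (N : ℕ) : BddAbove {k : ℕ | ∃ A : Finset ℤ,
    A ⊆ Finset.Icc (1 : ℤ) N ∧ A.card = k ∧
    ∀ a ∈ A, ∀ b ∈ A, ∀ n : ℕ, 1 ≤ n → a - b = h.eval (n : ℤ) → a - b = 0} :=
  ⟨_, by rintro k ⟨A, h1, rfl, -⟩; exact card_le_card h1⟩

/-- the height becomes the leading digit -/
theorem Sys.le_r {M s T N : ℕ} (h : Sys M s T) (hN : M * T ≤ N) : s ≤ r (Polynomial.X ^ 2) N := by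
  obtain ⟨S, Φ, h1, h2, h3⟩ := h
  refine le_csSup (r_bdd _ _) ⟨S.image fun x => ((x + M * Φ x + 1 : ℕ) : ℤ), fun a ha => ?_, ?_,
    fun a ha b hb n _ e => ?_⟩
  · obtain ⟨x, hx, rfl⟩ := mem_image.1 ha
    have := lex_lt (d := 0) (h2 x hx).2 (h2 x hx).1
    rw [mul_comm T, mul_comm (Φ x)] at this
    rw [mem_Icc]; omega
  · rw [card_image_of_injOn, h1]
    intro x hx y hy e
    have e1 : x + M * Φ x = y + M * Φ y := by dsimp only at e; omega
    have e2 := congrArg (· % M) e1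
    simpa only [Nat.add_mul_mod_self_left, Nat.mod_eq_of_lt (h2 x hx).1,
      Nat.mod_eq_of_lt (h2 y hy).1] using e2
  · obtain ⟨x, hx, rfl⟩ := mem_image.1 ha
    obtain ⟨y, hy, rfl⟩ := mem_image.1 hb
    rw [Polynomial.eval_pow, Polynomial.eval_X] at e
    have e1 : x + M * Φ x = y + M * Φ y + n ^ 2 := by
      have : ((x + M * Φ x : ℕ) : ℤ) = (y + M * Φ y + n ^ 2 : ℕ) := by
        push_cast at e ⊢; linarith
      exact_mod_cast this
    have e2 : x ≡ y + n ^ 2 [MOD M] := by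
      have := congrArg (· % M) e1
      rw [add_right_comm y] at this
      simpa only [Nat.add_mul_mod_self_left] using! this
    rcases h3 x hx y hy n e2 with rfl | hlt
    · exact sub_self _
    · have := lex_lt (d := y) hlt (h2 x hx).1
      rw [mul_comm (Φ x), mul_comm (Φ y)] at this
      omega

/-- the blocks `(m, s, T, e)` -/
def blocks : List (ℕ × ℕ × ℕ × ℕ) :=
  [(3, 6, 2, 26), (7, 21, 3, 16), (11, 44, 4, 13), (19, 95, 5, 11), (31, 217, 7, 9),
    (43, 301, 7, 9), (59, 531, 9, 8), (71, 639, 9, 8), (103, 1133, 11, 7), (4, 10, 6, 10),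
    (115, 1380, 6, 10)]

theorem sqf_prime {p : ℕ} (h : p.Prime) : Squarefree p := h.prime.squarefree

theorem blocks_sys : ∀ b ∈ blocks, Sys (b.1 ^ 2) b.2.1 b.2.2.1 := by
  simp only [blocks, List.forall_mem_cons]
  refine ⟨?_, ?_, ?_, ?_, ?_, ?_, ?_, ?_, ?_, ?_, ?_, by simp⟩
  · exact (Sys.base 3 2 [(0, 1), (1, 0)] (by decide) (by decide) (by decide +kernel)).sq
      (sqf_prime (by norm_num))
  · exact (Sys.base 7 3 [(3, 2), (4, 1), (5, 0)] (by decide) (by decide) (by decide +kernel)).sq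
      (sqf_prime (by norm_num))
  · exact (Sys.base 11 4 [(0, 0), (7, 3), (8, 1), (10, 2)] (by decide) (by decide)
      (by decide +kernel)).sq (sqf_prime (by norm_num))
  · exact (Sys.base 19 5 [(0, 2), (1, 1), (5, 0), (13, 3), (15, 4)] (by decide) (by decide)
      (by decide +kernel)).sq (sqf_prime (by norm_num))
  · exact (Sys.base 31 7 [(7, 2), (10, 5), (13, 6), (14, 0), (17, 1), (20, 4), (29, 3)] (by decide)
      (by decide) (by decide +kernel)).sq (sqf_prime (by norm_num))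
  · exact (Sys.base 43 7 [(3, 5), (9, 0), (16, 4), (17, 3), (27, 2), (35, 6), (41, 1)] (by decide)
      (by decide) (by decide +kernel)).sq (sqf_prime (by norm_num))
  · exact (Sys.base 59 9 [(14, 6), (20, 7), (21, 2), (23, 5), (35, 4), (39, 3), (40, 0), (42, 1),
      (53, 8)] (by decide) (by decide) (by decide +kernel)).sq (sqf_prime (by norm_num))
  · exact (Sys.base 71 9 [(5, 5), (16, 7), (19, 6), (21, 4), (24, 2), (25, 0), (47, 8), (48, 1),
      (59, 3)] (by decide) (by decide) (by decide +kernel)).sq (sqf_prime (by norm_num))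
  · exact (Sys.base 103 11 [(20, 6), (29, 4), (40, 9), (41, 7), (48, 0), (51, 10), (58, 1), (68, 8),
      (69, 5), (70, 2), (101, 3)] (by decide) (by decide) (by decide +kernel)).sq
      (sqf_prime (by norm_num))
  · exact Sys.base 16 6 [(0, 1), (1, 0), (3, 3), (4, 0), (6, 5), (9, 0), (11, 5), (12, 2), (14, 5),
      (15, 4)] (by decide) (by decide) (by decide +kernel)
  · exact (Sys.base 115 6 [(2, 5), (3, 2), (38, 1), (40, 2), (43, 4), (44, 0), (55, 5), (56, 1),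
      (59, 3), (61, 4), (96, 3), (97, 0)] (by decide) (by decide) (by decide +kernel)).sq
      ((Nat.squarefree_mul (m := 5) (n := 23) (by norm_num)).2
        ⟨sqf_prime (by norm_num), sqf_prime (by norm_num)⟩)

theorem list_sys (T k : ℕ) (l : List (ℕ × ℕ × ℕ × ℕ)) (h1 : ∀ b ∈ l, Sys (b.1 ^ 2) b.2.1 b.2.2.1)
    (h2 : ∀ b ∈ l, b.2.2.1 ^ b.2.2.2 ≤ T) (h3 : (l.map Prod.fst).Pairwise Nat.Coprime) :
    Sys ((l.map fun b => (b.1 ^ 2) ^ b.2.2.2).prod ^ k) ((l.map fun b => b.2.1 ^ b.2.2.2).prod ^ k)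
      (l.length * T ^ k + 1) := by
  induction l with
  | nil => simpa using Sys.one
  | cons b l ih =>
    rw [List.map_cons, List.pairwise_cons] at h3
    have a1 := ih (fun c hc => h1 c (List.mem_cons_of_mem _ hc))
      (fun c hc => h2 c (List.mem_cons_of_mem _ hc)) h3.2
    have a2 := (h1 b List.mem_cons_self).pow (b.2.2.2 * k)
    rw [pow_mul, pow_mul b.2.1, pow_mul b.2.2.1] at a2
    have a3 := (a2.mono (Nat.pow_le_pow_left (h2 b List.mem_cons_self) k)).crt a1 (by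
      refine Nat.Coprime.pow _ _ (Nat.coprime_list_prod_right_iff.2 fun x hx => ?_)
      obtain ⟨c, hc, rfl⟩ := List.mem_map.1 hx
      exact Nat.Coprime.pow _ _ (Nat.Coprime.pow _ _ (h3.1 _ (List.mem_map_of_mem hc))))
    rw [List.map_cons, List.map_cons, List.prod_cons, List.prod_cons, mul_pow, mul_pow,
      List.length_cons]
    exact a3.mono (le_of_eq (by ring))

theorem growth {Q s a b : ℕ} (hQ : 2 ≤ Q) (hb : 0 < b) (hs : Q ^ a ≤ s ^ b) {f : ℕ → ℕ} {C : ℕ}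
    (hC : 1 ≤ C) (h1 : ∀ N, 1 ≤ N → 1 ≤ f N) (h : ∀ k N, C * Q ^ k ≤ N → s ^ k ≤ f N) :
    ∃ c : ℝ, 0 < c ∧ ∀ N : ℕ, 1 ≤ N → c * (N : ℝ) ^ ((a : ℝ) / b) ≤ f N := by
  have hQ' : (0 : ℝ) < Q := by positivity
  have hC' : (0 : ℝ) < C := by positivity
  have e1 : (Q : ℝ) ^ ((a : ℝ) / b) ≤ s := by
    rw [div_eq_mul_inv, Real.rpow_natCast_mul hQ'.le,
      Real.rpow_inv_le_iff_of_pos (by positivity) (by positivity) (by positivity),
      Real.rpow_natCast]
    exact_mod_cast hs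
  refine ⟨(((C : ℝ) * Q) ^ ((a : ℝ) / b))⁻¹, by positivity, fun N hN => ?_⟩
  rw [inv_mul_le_iff₀ (by positivity)]
  have key : ∃ k : ℕ, N ≤ C * Q * Q ^ k ∧ (Q : ℝ) ^ ((a : ℝ) / b * k) ≤ f N := by
    by_cases hc : C ≤ N
    · refine ⟨Nat.log Q (N / C), ?_, ?_⟩
      · have := Nat.lt_pow_succ_log_self hQ (N / C)
        have h2 := Nat.lt_mul_div_succ N hC
        calc N ≤ C * (N / C + 1) := h2.le
          _ ≤ C * Q ^ (Nat.log Q (N / C) + 1) := Nat.mul_le_mul_left _ this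
          _ = _ := by ring
      · have h2 := h (Nat.log Q (N / C)) N ((Nat.mul_le_mul_left _ (Nat.pow_log_le_self Q
          (Nat.div_pos hc hC).ne')).trans (Nat.mul_div_le _ _))
        rw [Real.rpow_mul_natCast hQ'.le]
        exact (pow_le_pow_left₀ (by positivity) e1 _).trans (by exact_mod_cast h2)
    · refine ⟨0, by nlinarith, ?_⟩
      simpa using h1 N hN
  obtain ⟨k, k1, k2⟩ := key
  calc (N : ℝ) ^ ((a : ℝ) / b) ≤ ((C : ℝ) * Q * Q ^ k) ^ ((a : ℝ) / b) :=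
        Real.rpow_le_rpow (by positivity) (by exact_mod_cast k1) (by positivity)
    _ = ((C : ℝ) * Q) ^ ((a : ℝ) / b) * (Q : ℝ) ^ ((a : ℝ) / b * k) := by
        rw [Real.mul_rpow (by positivity) (by positivity), mul_comm ((a : ℝ) / b),
          Real.rpow_natCast_mul hQ'.le]
    _ ≤ _ := mul_le_mul_of_nonneg_left k2 (by positivity)

theorem fin_ineq (M T L k N : ℕ) (hT : 0 < T) (hL : L = 11) (hN : 12 * (M * T) ^ k ≤ N) :
    M ^ k * (L * T ^ k + 1) ≤ N := by
  refine le_trans ?_ hN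
  have h2 : 1 ≤ T ^ k := Nat.one_le_pow _ _ hT
  rw [hL, mul_pow, mul_left_comm]
  exact Nat.mul_le_mul_left _ (by omega)

theorem lower : ∃ c : ℝ, 0 < c ∧ ∀ N : ℕ, 1 ≤ N →
    c * (N : ℝ) ^ (((7563 : ℕ) : ℝ) / (10000 : ℕ)) ≤ r (Polynomial.X ^ 2) N := by
  refine growth (Q := (blocks.map fun b => (b.1 ^ 2) ^ b.2.2.2).prod * 2 ^ 26)
    (s := (blocks.map fun b => b.2.1 ^ b.2.2.2).prod) (C := 12) (by decide +kernel) (by norm_num)
    (by decide +kernel) (by norm_num) (fun N hN => Sys.one.le_r hN) fun k N hN => ?_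
  exact (list_sys (2 ^ 26) k blocks blocks_sys (by decide +kernel) (by decide +kernel)).le_r
    (fin_ineq _ _ _ _ _ (Nat.two_pow_pos 26) rfl hN)

end Vale.Agent.P042
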